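import Crest.Agent.R47.Defs

set_option autoImplicit false

namespace Crest.Agent.R47

open Ty

def RowOK (h u : ℕ) : Ty → Prop
  | anc k _ _ _ => k < h
  | var j x => j.natAbs ≤ h ∧ x = u
  | dum => True

def ColOK (h u w : ℕ) : Ty → Prop
  | anc k _ _ _ => k < h
  | var j y => j.natAbs ≤ h ∧ y = if j.natAbs = h then w else u
  | dum => True

def Prot (h : ℕ) : Ty → Ty → Prop
  | var _ _, var l _ => l.natAbs = h
  | _, _ => True

def NotAnc : Ty → Prop
  | anc _ _ _ _ => False
  | _ => True

def HasCopy (h u w : ℕ) (B : Ty → Ty → Prop) : Prop :=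
  ∃ f g : Fin 66 → Ty, StrictMono (key posR ∘ f) ∧ StrictMono (key posC ∘ g) ∧
    (∀ i, RowOK h u (f i)) ∧ (∀ j, ColOK h u w (g j)) ∧ ∀ i j, (B (f i) (g j) ↔ Hp i j = true)

def mk (k : ℕ) (s : Bool) (b : Option Bool) (ρ1 ρ2 : Ty) (i : Fin 66) : Ty :=
  if h : i.val < 64 then anc k s b ⟨i.val, h⟩ else if i.val = 64 then ρ1 else ρ2

theorem mk_strict (pos : ℤ → ℕ → ℤ) (k : ℕ) (s : Bool) (b : Option Bool) (ρ1 ρ2 : Ty)
    (n1 : NotAnc ρ1) (n2 : NotAnc ρ2) (hlt : key pos ρ1 < key pos ρ2) :
    StrictMono (key pos ∘ mk k s b ρ1 ρ2) := by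
  intro i j hij
  rw [Fin.lt_def] at hij
  have hj := j.2
  simp only [Function.comp, mk]
  by_cases h1 : i.val < 64
  · rw [dif_pos h1]
    by_cases h2 : j.val < 64
    · rw [dif_pos h2]; simp only [key, lex_lt, true_and]; omega
    · rw [dif_neg h2]
      split_ifs
      · cases ρ1 <;> simp only [NotAnc] at n1 <;> simp only [key, lex_lt] <;> omega
      · cases ρ2 <;> simp only [NotAnc] at n2 <;> simp only [key, lex_lt] <;> omega
  · rw [dif_neg h1, dif_neg (by omega), if_pos (by omega), if_neg (by omega)]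
    exact hlt

theorem Mat_anc_left (k : ℕ) (s : Bool) (b : Option Bool) (i : Fin 64) (c : Ty) (n : NotAnc c) :
    Mat (anc k s b i) c ↔ (i.val = 63 ∧ c1 k s b c) ∨ (i.val = 62 ∧ c2 k s b c) := by
  cases c <;> simp only [NotAnc] at n <;> rfl

theorem Mat_anc_right (k : ℕ) (s : Bool) (b : Option Bool) (i : Fin 64) (c : Ty) (n : NotAnc c) :
    Mat c (anc k s b i) ↔ (i.val = 63 ∧ r1 k s b c) ∨ (i.val = 62 ∧ r2 k s b c) := by
  cases c <;> simp only [NotAnc] at n <;> rfl

theorem Prot_anc_left (h k : ℕ) (s : Bool) (b : Option Bool) (i : Fin 64) (c : Ty) :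
    Prot h (anc k s b i) c := by cases c <;> trivial

theorem Prot_anc_right (h k : ℕ) (s : Bool) (b : Option Bool) (i : Fin 64) (c : Ty) :
    Prot h c (anc k s b i) := by cases c <;> trivial

theorem mk_copy (h u w : ℕ) (B : Ty → Ty → Prop)
    (hprot : ∀ r c, RowOK h u r → ColOK h u w c → Prot h r c → (B r c ↔ Mat r c))
    (k : ℕ) (hk : k < h) (s : Bool) (b : Option Bool) (ρ1 ρ2 γ1 γ2 : Ty)
    (n1 : NotAnc ρ1) (n2 : NotAnc ρ2) (n3 : NotAnc γ1) (n4 : NotAnc γ2)
    (o1 : RowOK h u ρ1) (o2 : RowOK h u ρ2) (o3 : ColOK h u w γ1) (o4 : ColOK h u w γ2)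
    (h1 : r1 k s b ρ1) (h2 : r2 k s b ρ2) (h3 : c1 k s b γ1) (h4 : c2 k s b γ2)
    (h1' : ¬ r2 k s b ρ1) (h2' : ¬ r1 k s b ρ2) (h3' : ¬ c2 k s b γ1) (h4' : ¬ c1 k s b γ2)
    (hr : key posR ρ1 < key posR ρ2) (hc : key posC γ1 < key posC γ2)
    (m11 : ¬ B ρ1 γ1) (m12 : B ρ1 γ2) (m21 : B ρ2 γ1) (m22 : B ρ2 γ2) : HasCopy h u w B := by
  have oR : ∀ i, RowOK h u (mk k s b ρ1 ρ2 i) := by
    intro i; unfold mk; split_ifs
    · exact hk
    · exact o1
    · exact o2
  have oC : ∀ i, ColOK h u w (mk k s b γ1 γ2 i) := by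
    intro i; unfold mk; split_ifs
    · exact hk
    · exact o3
    · exact o4
  refine ⟨mk k s b ρ1 ρ2, mk k s b γ1 γ2, mk_strict _ _ _ _ _ _ n1 n2 hr,
    mk_strict _ _ _ _ _ _ n3 n4 hc, oR, oC, ?_⟩
  intro i j
  have hi := i.2
  have hj := j.2
  have oR' := oR i
  have oC' := oC j
  unfold mk at oR' oC' ⊢
  unfold Hp
  by_cases a1 : i.val < 64
  · rw [dif_pos a1] at oR' ⊢
    rw [if_pos a1, hprot _ _ oR' oC' (Prot_anc_left _ _ _ _ _ _)]
    by_cases a2 : j.val < 64
    · rw [dif_pos a2, if_pos a2]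
      simp [Mat, Fin.ext_iff]
    · rw [dif_neg a2, if_neg a2]
      by_cases a3 : j.val = 64
      · rw [if_pos a3, if_pos a3, Mat_anc_left _ _ _ _ _ n3]; simp [h3, h3']
      · rw [if_neg a3, if_neg a3, Mat_anc_left _ _ _ _ _ n4]; simp [h4, h4']
  · rw [dif_neg a1] at oR' ⊢
    rw [if_neg a1]
    by_cases a2 : j.val < 64
    · rw [dif_pos a2] at oC' ⊢
      rw [if_pos a2, hprot _ _ oR' oC' (Prot_anc_right _ _ _ _ _ _)]
      by_cases a3 : i.val = 64
      · rw [if_pos a3, if_pos a3, Mat_anc_right _ _ _ _ _ n1]; simp [h1, h1']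
      · rw [if_neg a3, if_neg a3, Mat_anc_right _ _ _ _ _ n2]; simp [h2, h2']
    · rw [dif_neg a2, if_neg a2]
      by_cases a3 : i.val = 64 <;> by_cases a4 : j.val = 64
      · rw [if_pos a3, if_pos a4]; simp [m11]; omega
      · rw [if_pos a3, if_neg a4]; simp [m12]; omega
      · rw [if_neg a3, if_pos a4]; simp [m21]; omega
      · rw [if_neg a3, if_neg a4]; simp [m22]; omega

/-- index of the path column at height `k` -/
def yy (h u w k : ℕ) : ℕ := if k = h then w else u

theorem yy_div (h u w k : ℕ) (hu : u < 2 ^ h) (hw : w < 2 ^ h) :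
    yy h u w k / 2 ^ k = u / 2 ^ k := by
  unfold yy
  split_ifs with e
  · subst e; rw [Nat.div_eq_of_lt hu, Nat.div_eq_of_lt hw]
  · rfl

theorem lo_yy (h u w k : ℕ) (hu : u < 2 ^ h) (hw : w < 2 ^ h) : lo (yy h u w k) k = lo u k := by
  unfold lo; rw [yy_div h u w k hu hw]
theorem hi_yy (h u w k : ℕ) (hu : u < 2 ^ h) (hw : w < 2 ^ h) : hi (yy h u w k) k = hi u k := by
  unfold hi; rw [yy_div h u w k hu hw]
theorem bit_yy (h u w k : ℕ) (hu : u < 2 ^ h) (hw : w < 2 ^ h) : bit (yy h u w k) k = bit u k := by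
  unfold bit; rw [yy_div h u w k hu hw]

theorem lo_mono (x k : ℕ) : lo x (k + 1) ≤ lo x k := by
  rw [lo_succ, lo, sc_le]; omega
theorem hi_mono (x k : ℕ) : hi x k ≤ hi x (k + 1) := by
  rw [hi_succ, hi, sub_le_sub_iff_right, sc_le]; omega

theorem chain (h u w : ℕ) (hu : u < 2 ^ h) (hw : w < 2 ^ h) (hh : 1 ≤ h) (B : Ty → Ty → Prop)
    (hprot : ∀ r c, RowOK h u r → ColOK h u w c → Prot h r c → (B r c ↔ Mat r c)) :
    HasCopy h u w B := by
  by_contra hno
  have okR : ∀ k ≤ h, RowOK h u (var k u) := fun k hk => ⟨by simpa using hk, rfl⟩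
  have okR' : ∀ k ≤ h, RowOK h u (var (-k) u) := fun k hk => ⟨by simpa using hk, rfl⟩
  have okC : ∀ k ≤ h, ColOK h u w (var k (yy h u w k)) := fun k hk =>
    ⟨by simpa using hk, by simp [yy]⟩
  have okC' : ∀ k ≤ h, ColOK h u w (var (-k) (yy h u w k)) := fun k hk =>
    ⟨by simpa using hk, by simp [yy]⟩
  have okD : RowOK h u dum := trivial
  have okD' : ColOK h u w dum := trivial
  have dR : ∀ c, ColOK h u w c → NotAnc c → B dum c := by
    intro c hc n
    rw [hprot _ _ okD hc (by cases c <;> trivial)]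
    cases c <;> simp only [NotAnc] at n <;> trivial
  have dC : ∀ r, RowOK h u r → NotAnc r → B r dum := by
    intro c hc n
    rw [hprot _ _ hc okD' (by cases c <;> trivial)]
    cases c <;> simp only [NotAnc] at n <;> trivial
  -- the plus chain
  have plus : ∀ d k, k + d = h → B (var k u) (var k (yy h u w k)) := by
    intro d
    induction d with
    | zero =>
      intro k hk
      have hk' : k = h := by omega
      subst hk'
      rw [hprot _ _ (okR k le_rfl) (okC k le_rfl) (by simp [Prot])]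
      simp only [Mat]
      rw [PP_pos, QQ_pos, hi_yy k u w k hu hw, lo, hi, sc_lt]; omega
    | succ d ih =>
      intro k hk
      have ih' := ih (k + 1) (by omega)
      have s1 : B (var k u) (var ((k + 1 : ℕ) : ℤ) (yy h u w (k + 1))) := by
        by_contra hc
        apply hno
        refine mk_copy h u w B hprot k (by omega) true none (var k u) (var ((k + 1 : ℕ) : ℤ) u)
          (var ((k + 1 : ℕ) : ℤ) (yy h u w (k + 1))) dum trivial trivial trivial trivial
          (okR k (by omega)) (okR (k + 1) (by omega)) (okC (k + 1) (by omega)) okD'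
          (by simp [r1]) (by simp [r2]) (by simp [c1]) (by simp [c2])
          (by simp [r2]) (by simp [r1]) (by simp [c2]) (by simp [c1]) ?_ ?_ hc
          (dC _ (okR k (by omega)) trivial) ih' (dC _ (okR (k + 1) (by omega)) trivial)
        · simp only [key, lex_lt, posR_pos, true_and]
          have := hi_mono u k
          omega
        · simp only [key, lex_lt]; omega
      by_contra hc
      apply hno
      refine mk_copy h u w B hprot k (by omega) true (some (bit u k)) (var k u) dum
        (var k (yy h u w k)) (var ((k + 1 : ℕ) : ℤ) (yy h u w (k + 1)))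
        trivial trivial trivial trivial
        (okR k (by omega)) okD (okC k (by omega)) (okC (k + 1) (by omega))
        (by simp [r1]) (by simp [r2]) (by simp [c1, bit_yy h u w k hu hw]) (by simp [c2])
        (by simp [r2]) (by simp [r1]) (by simp [c2]) (by simp [c1]) ?_ ?_ hc
        s1 (dR _ (okC k (by omega)) trivial) (dR _ (okC (k + 1) (by omega)) trivial)
      · simp only [key, lex_lt]; omega
      · simp only [key, lex_lt, posC_pos, lo_yy h u w _ hu hw, true_and]
        have := lo_mono u k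
        omega
  -- the minus chain
  have minus : ∀ d k, k + d = h → ¬ B (var (-k) u) (var (-k) (yy h u w k)) := by
    intro d
    induction d with
    | zero =>
      intro k hk
      have hk' : k = h := by omega
      subst hk'
      rw [hprot _ _ (okR' k le_rfl) (okC' k le_rfl) (by simp [Prot])]
      simp only [Mat]
      rw [PP_neg, QQ_neg _ _ (by omega), lo_yy k u w k hu hw, lo, hi, sub_le_sub_iff_right, sc_le]
      omega
    | succ d ih =>
      intro k hk
      have ih' := ih (k + 1) (by omega)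
      have s1 : ¬ B (var (-k) u) (var (-((k + 1 : ℕ) : ℤ)) (yy h u w (k + 1))) := by
        intro hc
        apply hno
        refine mk_copy h u w B hprot k (by omega) false none (var (-((k + 1 : ℕ) : ℤ)) u)
          (var (-k) u)
          (var (-((k + 1 : ℕ) : ℤ)) (yy h u w (k + 1))) dum trivial trivial trivial trivial
          (okR' (k + 1) (by omega)) (okR' k (by omega)) (okC' (k + 1) (by omega)) okD'
          (by simp [r1]) (by simp [r2]) (by simp [c1]) (by simp [c2])
          (by simp [r2]) (by simp [r1]) (by simp [c2]) (by simp [c1]) ?_ ?_ ih'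
          (dC _ (okR' (k + 1) (by omega)) trivial) hc (dC _ (okR' k (by omega)) trivial)
        · simp only [key, lex_lt, posR_neg, true_and]
          have := lo_mono u k
          omega
        · simp only [key, lex_lt]; omega
      intro hc
      apply hno
      refine mk_copy h u w B hprot k (by omega) false (some (bit u k)) (var (-k) u) dum
        (var (-((k + 1 : ℕ) : ℤ)) (yy h u w (k + 1))) (var (-k) (yy h u w k))
        trivial trivial trivial trivial
        (okR' k (by omega)) okD (okC' (k + 1) (by omega)) (okC' k (by omega))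
        (by simp [r1]) (by simp [r2]) (by simp [c1]) (by simp [c2, bit_yy h u w k hu hw])
        (by simp [r2]) (by simp [r1]) (by simp [c2]) (by simp [c1]) ?_ ?_ s1
        hc (dR _ (okC' (k + 1) (by omega)) trivial) (dR _ (okC' k (by omega)) trivial)
      · simp only [key, lex_lt]; omega
      · simp only [key, lex_lt, posC_neg, hi_yy h u w _ hu hw, true_and]
        have := hi_mono u k
        omega
  have p := plus h 0 (by omega)
  have m := minus h 0 (by omega)
  simp only [Nat.cast_zero, neg_zero] at p m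
  exact m p

end Crest.Agent.R47
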