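import Mathlib

set_option autoImplicit false

namespace Crest.Agent.R47

/-- The fixed pattern: 64 anchor lines, then two active lines. -/
def Hp (i j : Fin 66) : Bool :=
  if i.val < 64 then
    if j.val < 64 then decide (i.val = j.val ∨ i.val = 63 ∨ j.val = 63)
    else if j.val = 64 then decide (i.val = 63) else decide (i.val = 62)
  else if j.val < 64 then
    if i.val = 64 then decide (j.val = 63) else decide (j.val = 62)
  else decide (i.val = 65 ∨ j.val = 65)

theorem Hp_symm : ∀ i j, Hp i j = Hp j i := by decide +kernel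

theorem Hp_inj : ∀ j j' : Fin 66, (∀ i, Hp i j = Hp i j') → j = j' := by decide +kernel

/-- Types of lines (rows or columns) of the host matrix. -/
inductive Ty
  | anc (k : ℕ) (s : Bool) (b : Option Bool) (i : Fin 64)
  | var (j : ℤ) (x : ℕ)
  | dum

open Ty

def lo (x k : ℕ) : ℤ := ((x / 2 ^ k : ℕ) : ℤ) * 2 ^ k
def hi (x k : ℕ) : ℤ := (((x / 2 ^ k : ℕ) : ℤ) + 1) * 2 ^ k - 1
def bit (x k : ℕ) : Bool := decide (x / 2 ^ k % 2 = 1)

def PP (j : ℤ) (x : ℕ) : ℤ := if 0 ≤ j then lo x j.natAbs else hi x j.natAbs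
def QQ (j : ℤ) (y : ℕ) : ℤ := if 0 ≤ j then hi y j.natAbs else lo y j.natAbs - 1
def posR (j : ℤ) (x : ℕ) : ℤ := if 0 ≤ j then hi x j.natAbs else lo x j.natAbs
def posC (j : ℤ) (y : ℕ) : ℤ := if 0 ≤ j then -lo y j.natAbs else -hi y j.natAbs

def r1 (k : ℕ) : Bool → Option Bool → Ty → Prop
  | true, none, var j _ => j = k
  | false, none, var j _ => j = -(k + 1)
  | true, some b, var j x => j = k ∧ bit x k = b
  | false, some b, var j x => j = -k ∧ bit x k = b
  | _, _, _ => False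

def r2 (k : ℕ) : Bool → Option Bool → Ty → Prop
  | true, none, var j _ => j = k + 1
  | false, none, var j _ => j = -k
  | _, some _, dum => True
  | _, _, _ => False

def c1 (k : ℕ) : Bool → Option Bool → Ty → Prop
  | true, none, var j _ => j = k + 1
  | false, none, var j _ => j = -(k + 1)
  | true, some b, var j x => j = k ∧ bit x k = b
  | false, some _, var j _ => j = -(k + 1)
  | _, _, _ => False

def c2 (k : ℕ) : Bool → Option Bool → Ty → Prop
  | true, some _, var j _ => j = k + 1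
  | false, some b, var j x => j = -k ∧ bit x k = b
  | _, none, dum => True
  | _, _, _ => False

/-- The host matrix on line types. -/
def Mat : Ty → Ty → Prop
  | anc k s b i, anc k' s' b' j => (k = k' ∧ s = s' ∧ b = b') ∧ (i = j ∨ i.val = 63 ∨ j.val = 63)
  | anc k s b i, var j y => (i.val = 63 ∧ c1 k s b (var j y)) ∨ (i.val = 62 ∧ c2 k s b (var j y))
  | anc k s b i, dum => (i.val = 63 ∧ c1 k s b dum) ∨ (i.val = 62 ∧ c2 k s b dum)
  | var j x, anc k s b i => (i.val = 63 ∧ r1 k s b (var j x)) ∨ (i.val = 62 ∧ r2 k s b (var j x))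
  | dum, anc k s b i => (i.val = 63 ∧ r1 k s b dum) ∨ (i.val = 62 ∧ r2 k s b dum)
  | var j x, var j' y => PP j x ≤ QQ j' y
  | var _ _, dum => True
  | dum, var _ _ => True
  | dum, dum => True

/-- Sorting key, given the position function on variable lines. -/
def key (pos : ℤ → ℕ → ℤ) : Ty → ℤ ×ₗ ℤ ×ₗ ℤ
  | anc _ _ _ i => toLex (0, toLex ((i.val : ℤ), 0))
  | var j x => toLex (1, toLex (pos j x, j))
  | dum => toLex (2, toLex (0, 0))

theorem lex_le (a b c a' b' c' : ℤ) :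
    (toLex (a, toLex (b, c)) : ℤ ×ₗ ℤ ×ₗ ℤ) ≤ toLex (a', toLex (b', c')) ↔
      a < a' ∨ a = a' ∧ (b < b' ∨ b = b' ∧ c ≤ c') := by
  simp [Prod.Lex.toLex_le_toLex]

theorem lex_lt (a b c a' b' c' : ℤ) :
    (toLex (a, toLex (b, c)) : ℤ ×ₗ ℤ ×ₗ ℤ) < toLex (a', toLex (b', c')) ↔
      a < a' ∨ a = a' ∧ (b < b' ∨ b = b' ∧ c < c') := by
  simp [Prod.Lex.toLex_lt_toLex]

theorem lo_zero (x : ℕ) : lo x 0 = x := by simp [lo]
theorem hi_zero (x : ℕ) : hi x 0 = x := by simp [hi]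

theorem lo_succ (x k : ℕ) : lo x (k + 1) = (2 * ((x / 2 ^ k / 2 : ℕ) : ℤ)) * 2 ^ k := by
  unfold lo
  rw [Nat.div_div_eq_div_mul, ← pow_succ]; ring

theorem hi_succ (x k : ℕ) : hi x (k + 1) = (2 * ((x / 2 ^ k / 2 : ℕ) : ℤ) + 2) * 2 ^ k - 1 := by
  unfold hi
  rw [Nat.div_div_eq_div_mul, ← pow_succ]; ring

theorem sc_le (a b : ℤ) (k : ℕ) : a * 2 ^ k ≤ b * 2 ^ k ↔ a ≤ b :=
  mul_le_mul_iff_left₀ (by positivity)

theorem sc_lt (a b : ℤ) (k : ℕ) : a * 2 ^ k ≤ b * 2 ^ k - 1 ↔ a < b := by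
  rw [← mul_lt_mul_iff_left₀ (show (0:ℤ) < 2 ^ k by positivity)]
  omega

theorem PP_pos (k x : ℕ) : PP k x = lo x k := by simp [PP]
theorem QQ_pos (k x : ℕ) : QQ k x = hi x k := by simp [QQ]
theorem posR_pos (k x : ℕ) : posR k x = hi x k := by simp [posR]
theorem posC_pos (k x : ℕ) : posC k x = -lo x k := by simp [posC]

theorem PP_neg (k x : ℕ) : PP (-k) x = hi x k := by
  rcases Nat.eq_zero_or_pos k with rfl | hk
  · simp [PP, lo_zero, hi_zero]
  · have : ¬ (0 : ℤ) ≤ -k := by omega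
    simp only [PP, if_neg this, Int.natAbs_neg, Int.natAbs_natCast]
theorem posR_neg (k x : ℕ) : posR (-k) x = lo x k := by
  rcases Nat.eq_zero_or_pos k with rfl | hk
  · simp [posR, lo_zero, hi_zero]
  · have : ¬ (0 : ℤ) ≤ -k := by omega
    simp only [posR, if_neg this, Int.natAbs_neg, Int.natAbs_natCast]
theorem posC_neg (k x : ℕ) : posC (-k) x = -hi x k := by
  rcases Nat.eq_zero_or_pos k with rfl | hk
  · simp [posC, lo_zero, hi_zero]
  · have : ¬ (0 : ℤ) ≤ -k := by omega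
    simp only [posC, if_neg this, Int.natAbs_neg, Int.natAbs_natCast]
theorem QQ_neg (k x : ℕ) (hk : 0 < k) : QQ (-k) x = lo x k - 1 := by
  have : ¬ (0 : ℤ) ≤ -k := by omega
  simp only [QQ, if_neg this, Int.natAbs_neg, Int.natAbs_natCast]

end Crest.Agent.R47
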