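import Crest.Agent.R47.Rigid
import Crest.Agent.R47.Chain
import Crest.Prelude.Def_OrderedMatrix

set_option autoImplicit false

namespace Crest.Agent.R47

open Ty

abbrev Blk (h : ℕ) := (Fin h × Bool × Option Bool × Fin 64) ⊕ Option (Fin (2 * h + 1))

abbrev Line (h : ℕ) := Blk h × Fin (2 ^ h)

theorem card_Line (h : ℕ) : Fintype.card (Line h) = (386 * h + 2) * 2 ^ h := by
  simp [Line, Blk]; ring

def proj {h : ℕ} : Line h → Ty
  | (Sum.inl (k, s, b, i), _) => anc k.val s b i
  | (Sum.inr none, _) => dum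
  | (Sum.inr (some v), x) => var ((v.val : ℤ) - h) x.val

def blk (h : ℕ) : Ty → Blk h
  | anc k s b i => if hk : k < h then Sum.inl (⟨k, hk⟩, s, b, i) else Sum.inr none
  | var j _ => if hj : j.natAbs ≤ h then Sum.inr (some ⟨(j + h).toNat, by omega⟩) else Sum.inr none
  | dum => Sum.inr none

def isV {h : ℕ} : Blk h → Bool
  | Sum.inr (some _) => true
  | _ => false

def isW {h : ℕ} : Blk h → Bool
  | Sum.inr (some v) => decide (((v.val : ℤ) - h).natAbs ≠ h)
  | _ => false

def liftR {h : ℕ} (u w : Fin (2 ^ h)) (r : Ty) : Line h :=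
  (blk h r, if isV (blk h r) then u else u + w)

def liftC {h : ℕ} (u w : Fin (2 ^ h)) (c : Ty) : Line h :=
  (blk h c, if isW (blk h c) then u else w)

def decode {h : ℕ} (r c : Line h) : Fin (2 ^ h) × Fin (2 ^ h) :=
  if isV r.1 then (r.2, c.2) else if isW c.1 then (c.2, r.2 - c.2) else (r.2 - c.2, c.2)

theorem proj_liftR {h : ℕ} (u w : Fin (2 ^ h)) (r : Ty) (hr : RowOK h u.val r) :
    proj (liftR u w r) = r := by
  cases r with
  | anc k s b i => simp only [RowOK] at hr; simp [liftR, blk, hr, proj]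
  | dum => simp [liftR, blk, proj]
  | var j x =>
    obtain ⟨h1, rfl⟩ := hr
    simp only [liftR, blk, h1, dif_pos, proj, isV, if_true]
    congr 1
    omega

theorem proj_liftC {h : ℕ} (u w : Fin (2 ^ h)) (c : Ty) (hc : ColOK h u.val w.val c) :
    proj (liftC u w c) = c := by
  cases c with
  | anc k s b i => simp only [ColOK] at hc; simp [liftC, blk, hc, proj]
  | dum => simp [liftC, blk, proj]
  | var j x =>
    obtain ⟨h1, rfl⟩ := hc
    have e : (((j + h).toNat : ℕ) : ℤ) - h = j := by omega
    simp only [liftC, blk, h1, dif_pos, proj, isW, e]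
    congr 1
    by_cases hj : j.natAbs = h <;> simp [hj]

theorem decode_lift {h : ℕ} (u w : Fin (2 ^ h)) (r c : Ty) (hr : RowOK h u.val r)
    (hc : ColOK h u.val w.val c) (hp : Prot h r c) :
    decode (liftR u w r) (liftC u w c) = (u, w) := by
  unfold decode liftR liftC
  by_cases h1 : isV (blk h r) = true
  · have h2 : ¬ isW (blk h c) = true := by
      cases r with
      | anc k s b i => simp only [RowOK] at hr; simp [blk, hr, isV] at h1
      | dum => simp [blk, isV] at h1
      | var j x =>
        cases c with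
        | anc k s b i => simp only [ColOK] at hc; simp [blk, hc, isW]
        | dum => simp [blk, isW]
        | var l y =>
          simp only [Prot] at hp
          have e : (((l + h).toNat : ℕ) : ℤ) - h = l := by omega
          have h3 : l.natAbs ≤ h := hc.1
          simp only [blk, h3, dif_pos, isW, e]
          simp [hp]
    simp [h1, h2]
  · by_cases h2 : isW (blk h c) = true <;> simp [h1, h2]

theorem proj_var_inj {h : ℕ} (l l' : Line h) (x x' : ℕ) (hl : proj l = var 0 x)
    (hl' : proj l' = var 0 x') (e : x = x') : l = l' := by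
  obtain ⟨(⟨k, s, b, i⟩ | (_ | v)), y⟩ := l <;> simp only [proj, reduceCtorEq] at hl
  obtain ⟨(⟨k', s', b', i'⟩ | (_ | v')), y'⟩ := l' <;> simp only [proj, reduceCtorEq] at hl'
  simp only [var.injEq] at hl hl'
  have e1 : v = v' := by apply Fin.ext; omega
  have e2 : y = y' := by apply Fin.ext; omega
  rw [e1, e2]

theorem proj_var_snd {h : ℕ} (l : Line h) (j : ℤ) (x : ℕ) (hl : proj l = var j x) :
    x = l.2.val := by
  obtain ⟨(⟨k, s, b, i⟩ | (_ | v)), y⟩ := l <;> simp only [proj, reduceCtorEq] at hl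
  simp only [var.injEq] at hl
  exact hl.2.symm

/-- Sorting a finite type along a key. -/
theorem exists_sorted {L α : Type} [Fintype L] [LinearOrder α] (n : ℕ) (hn : Fintype.card L = n)
    (κ : L → α) : ∃ e : Fin n ≃ L, Monotone (κ ∘ e) := by
  let e0 : Fin n ≃ L := (Fintype.equivFinOfCardEq hn).symm
  exact ⟨(Tuple.sort (κ ∘ e0)).trans e0, Tuple.monotone_sort (κ ∘ e0)⟩

open Crest.CombinatoricsR.OrderedMatrix

theorem far (h n : ℕ) (hh : 1 ≤ h) (eR eC : Fin n ≃ Line h)
    (hR : Monotone ((key posR ∘ proj) ∘ eR)) (hC : Monotone ((key posC ∘ proj) ∘ eC))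
    (A B : Fin n → Fin n → Bool) (hA : ∀ r c, A r c = true ↔ Mat (proj (eR r)) (proj (eC c)))
    (hB : orderedCopyCount Hp B = 0) :
    2 ^ h * 2 ^ h ≤ (Finset.univ.filter (fun rc : Fin n × Fin n =>
      A rc.1 rc.2 ≠ B rc.1 rc.2)).card := by
  classical
  by_contra hlt
  push Not at hlt
  set D := Finset.univ.filter (fun rc : Fin n × Fin n => A rc.1 rc.2 ≠ B rc.1 rc.2) with hD
  have : ∃ p : Fin (2 ^ h) × Fin (2 ^ h),
      p ∉ D.image (fun rc => decode (eR rc.1) (eC rc.2)) := by
    by_contra hall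
    push Not at hall
    have h1 : (D.image (fun rc => decode (eR rc.1) (eC rc.2))) = Finset.univ :=
      Finset.eq_univ_of_forall hall
    have h2 := Finset.card_image_le (s := D) (f := fun rc => decode (eR rc.1) (eC rc.2))
    rw [h1] at h2
    simp only [Finset.card_univ, Fintype.card_prod, Fintype.card_fin] at h2
    omega
  obtain ⟨⟨u, w⟩, hp⟩ := this
  obtain ⟨f, g, hf, hg, of, og, hfg⟩ := chain h u w u.2 w.2 hh
    (fun r c => B (eR.symm (liftR u w r)) (eC.symm (liftC u w c)) = true) (by
      intro r c hr hc hpr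
      have e : A (eR.symm (liftR u w r)) (eC.symm (liftC u w c)) =
          B (eR.symm (liftR u w r)) (eC.symm (liftC u w c)) := by
        by_contra hne
        apply hp
        rw [Finset.mem_image]
        refine ⟨(eR.symm (liftR u w r), eC.symm (liftC u w c)), ?_, ?_⟩
        · rw [hD, Finset.mem_filter]; exact ⟨Finset.mem_univ _, hne⟩
        · simp only [Equiv.apply_symm_apply]
          exact decode_lift u w r c hr hc hpr
      rw [← e, hA]
      simp only [Equiv.apply_symm_apply]
      rw [proj_liftR u w r hr, proj_liftC u w c hc])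
  unfold orderedCopyCount at hB
  rw [Fintype.card_eq_zero_iff] at hB
  refine hB.false ⟨(fun i => eR.symm (liftR u w (f i)), fun j => eC.symm (liftC u w (g j))),
    ?_, ?_, ?_⟩
  · intro i j hij
    apply hR.reflect_lt
    simp only [Function.comp, Equiv.apply_symm_apply]
    rw [proj_liftR u w _ (of i), proj_liftR u w _ (of j)]
    exact hf hij
  · intro i j hij
    apply hC.reflect_lt
    simp only [Function.comp, Equiv.apply_symm_apply]
    rw [proj_liftC u w _ (og i), proj_liftC u w _ (og j)]
    exact hg hij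
  · intro i j
    rw [Bool.eq_iff_iff]
    exact hfg i j

theorem few (h n : ℕ) (eR eC : Fin n ≃ Line h)
    (hR : Monotone ((key posR ∘ proj) ∘ eR)) (hC : Monotone ((key posC ∘ proj) ∘ eC))
    (A : Fin n → Fin n → Bool) (hA : ∀ r c, A r c = true ↔ Mat (proj (eR r)) (proj (eC c))) :
    orderedCopyCount Hp A ≤ 2 ^ h * (n ^ 65 * n ^ 65) := by
  classical
  unfold orderedCopyCount
  have hr : ∀ rc : {rc : (Fin 66 → Fin n) × (Fin 66 → Fin n) //
      StrictMono rc.1 ∧ StrictMono rc.2 ∧ ∀ i j : Fin 66, A (rc.1 i) (rc.2 j) = Hp i j},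
      ∃ x, proj (eR (rc.1.1 64)) = var 0 x ∧ proj (eC (rc.1.2 65)) = var 0 x := by
    rintro ⟨⟨f, g⟩, hf, hg, hfg⟩
    refine rigid (fun i => proj (eR (f i))) (fun j => proj (eC (g j))) ?_ ?_ ?_
    · exact hR.comp hf.monotone
    · exact hC.comp hg.monotone
    · intro i j
      rw [← hA]
      simp only at hfg
      rw [hfg]
  have := Fintype.card_le_of_injective
    (fun rc : {rc : (Fin 66 → Fin n) × (Fin 66 → Fin n) //
      StrictMono rc.1 ∧ StrictMono rc.2 ∧ ∀ i j : Fin 66, A (rc.1 i) (rc.2 j) = Hp i j} =>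
      (((eR (rc.1.1 64)).2, fun t : Fin 65 => rc.1.1 ((64 : Fin 66).succAbove t),
        fun t : Fin 65 => rc.1.2 ((65 : Fin 66).succAbove t)) :
          Fin (2 ^ h) × (Fin 65 → Fin n) × (Fin 65 → Fin n))) (by
      intro p q hpq
      simp only [Prod.mk.injEq] at hpq
      obtain ⟨e1, e2, e3⟩ := hpq
      obtain ⟨x, p1, p2⟩ := hr p
      obtain ⟨y, q1, q2⟩ := hr q
      have hxy : x = y := by rw [proj_var_snd _ _ _ p1, proj_var_snd _ _ _ q1, e1]
      apply Subtype.ext
      apply Prod.ext
      · funext i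
        refine Fin.succAboveCases (64 : Fin 66) ?_ ?_ i
        · exact eR.injective (proj_var_inj _ _ _ _ p1 q1 hxy)
        · intro t; exact congrFun e2 t
      · funext i
        refine Fin.succAboveCases (65 : Fin 66) ?_ ?_ i
        · exact eC.injective (proj_var_inj _ _ _ _ p2 q2 hxy)
        · intro t; exact congrFun e3 t)
  simpa using this

end Crest.Agent.R47
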