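import Crest.Agent.R47.Defs

set_option autoImplicit false

namespace Crest.Agent.R47

open Ty

theorem key_var_le {pos : ℤ → ℕ → ℤ} {j j' : ℤ} {x x' : ℕ}
    (h : key pos (var j x) ≤ key pos (var j' x')) : pos j x ≤ pos j' x' := by
  simp only [key, lex_le] at h; omega

theorem Hp_63 : ∀ t : Fin 64, Hp 63 (t.castLE (by decide)) = true := by decide

/-- Generic form of the first alignment claim (used for rows and, transposed, for columns). -/
theorem claimA (M : Ty → Ty → Prop) (ρ1 ρ2 : ℕ → Bool → Option Bool → Ty → Prop)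
    (pf pg : ℤ → ℕ → ℤ)
    (h1 : ∀ j x k s b i, M (var j x) (anc k s b i) ↔
      (i.val = 63 ∧ ρ1 k s b (var j x)) ∨ (i.val = 62 ∧ ρ2 k s b (var j x)))
    (h2 : ∀ j x j' x' l y l' y', M (var j x) (var l y) → M (var j' x') (var l' y') →
      M (var j x) (var l' y') ∨ M (var j' x') (var l y))
    (h2d : ∀ j x, M (var j x) dum) (h2d' : ∀ j x, M dum (var j x)) (h2d'' : M dum dum)
    (u1 : ∀ k k' s b j x, ρ1 k s b (var j x) → ρ1 k' s b (var j x) → k = k')
    (u2 : ∀ k k' s b j x, ρ2 k s b (var j x) → ρ2 k' s b (var j x) → k = k')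
    (f g : Fin 66 → Ty) (hf : Monotone (key pf ∘ f)) (hg : Monotone (key pg ∘ g))
    (hM : ∀ i j, M (f i) (g j) ↔ Hp i j = true) :
    ∃ k s b i, f 63 = anc k s b i := by
  have finj : ∀ i i', f i = f i' → i = i' := by
    intro i i' e
    apply Hp_inj
    intro j
    rw [Hp_symm j i, Hp_symm j i', Bool.eq_iff_iff, ← hM, ← hM, e]
  have ginj : ∀ i i', g i = g i' → i = i' := by
    intro i i' e
    apply Hp_inj
    intro j
    rw [Bool.eq_iff_iff, ← hM, ← hM, e]
  have m1 := hf (show (63 : Fin 66) ≤ 64 by decide)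
  have m2 := hg (show (64 : Fin 66) ≤ 65 by decide)
  have a1 := hM 63 64
  have a2 := hM 63 65
  have a3 := hM 64 64
  have a4 := hM 64 65
  have e1 : Hp 63 64 = true := by decide
  have e2 : Hp 63 65 = false := by decide
  have e3 : Hp 64 64 = false := by decide
  have e4 : Hp 64 65 = true := by decide
  simp only [e1, e2, e3, e4, iff_true, Bool.false_eq_true, iff_false] at a1 a2 a3 a4
  simp only [Function.comp] at m1 m2
  cases hf63 : f 63 with
  | anc k s b i => exact ⟨k, s, b, i, rfl⟩
  | dum =>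
    exfalso
    cases hf64 : f 64 with
    | anc k s b i => rw [hf63, hf64] at m1; simp only [key, lex_le] at m1; omega
    | var j x => rw [hf63, hf64] at m1; simp only [key, lex_le] at m1; omega
    | dum => exact absurd (finj 63 64 (by rw [hf63, hf64])) (by decide)
  | var j x =>
    exfalso
    -- first: `g 64` is an anchor
    have hg64 : ∃ k s b i, g 64 = anc k s b i := by
      cases hg64 : g 64 with
      | anc k s b i => exact ⟨k, s, b, i, rfl⟩
      | dum =>
        exfalso
        cases hf64 : f 64 with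
        | anc k s b i => rw [hf63, hf64] at m1; simp only [key, lex_le] at m1; omega
        | var j x => rw [hf64, hg64] at a3; exact a3 (h2d _ _)
        | dum => rw [hf64, hg64] at a3; exact a3 h2d''
      | var l y =>
        exfalso
        cases hf64 : f 64 with
        | anc k s b i => rw [hf63, hf64] at m1; simp only [key, lex_le] at m1; omega
        | dum => rw [hf64, hg64] at a3; exact a3 (h2d' _ _)
        | var j' x' =>
          cases hg65 : g 65 with
          | anc k s b i => rw [hg64, hg65] at m2; simp only [key, lex_le] at m2; omega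
          | dum => rw [hf63, hg65] at a2; exact a2 (h2d _ _)
          | var l' y' =>
            rw [hf63, hg64] at a1
            rw [hf63, hg65] at a2
            rw [hf64, hg64] at a3
            rw [hf64, hg65] at a4
            rcases h2 _ _ _ _ _ _ _ _ a1 a4 with h | h
            · exact a2 h
            · exact a3 h
    obtain ⟨k0, s0, b0, i0, hg64⟩ := hg64
    have hall : ∀ t : Fin 64, ∃ (k : ℕ) (κ : Bool × Option Bool × Bool),
        (κ.2.2 = true ∧ ρ1 k κ.1 κ.2.1 (var j x) ∧ g (t.castLE (by decide)) = anc k κ.1 κ.2.1 63) ∨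
        (κ.2.2 = false ∧ ρ2 k κ.1 κ.2.1 (var j x) ∧
          g (t.castLE (by decide)) = anc k κ.1 κ.2.1 62) := by
      intro t
      have m3 := hg (show (t.castLE (by decide) : Fin 66) ≤ 64 by
        rw [Fin.le_def]; have := t.2; simp)
      simp only [Function.comp] at m3
      have a5 := hM 63 (t.castLE (by decide))
      have e5 : Hp 63 (t.castLE (by decide)) = true := Hp_63 t
      rw [e5, hf63] at a5
      cases hgt : g (t.castLE (by decide)) with
      | var l y => rw [hgt, hg64] at m3; simp only [key, lex_le] at m3; omega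
      | dum => rw [hgt, hg64] at m3; simp only [key, lex_le] at m3; omega
      | anc k s b i =>
        rw [hgt, h1] at a5
        rcases a5.2 rfl with ⟨hi, hr⟩ | ⟨hi, hr⟩
        · refine ⟨k, (s, b, true), Or.inl ⟨rfl, hr, ?_⟩⟩
          have : i = 63 := Fin.ext hi
          rw [this]
        · refine ⟨k, (s, b, false), Or.inr ⟨rfl, hr, ?_⟩⟩
          have : i = 62 := Fin.ext hi
          rw [this]
    choose kk κ hκ using hall
    obtain ⟨t, t', hne, heq⟩ := Fintype.exists_ne_map_eq_of_card_lt κ (by simp)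
    have ht := hκ t
    have ht' := hκ t'
    rw [← heq] at ht'
    apply hne
    have key : g (t.castLE (by decide)) = g (t'.castLE (by decide)) := by
      rcases ht with ⟨p1, p2, p3⟩ | ⟨p1, p2, p3⟩ <;> rcases ht' with ⟨q1, q2, q3⟩ | ⟨q1, q2, q3⟩
      · rw [p3, q3, u1 _ _ _ _ _ _ p2 q2]
      · rw [p1] at q1; exact absurd q1 (by decide)
      · rw [p1] at q1; exact absurd q1 (by decide)
      · rw [p3, q3, u2 _ _ _ _ _ _ p2 q2]
    exact Fin.castLE_injective _ (ginj _ _ key)

/-- Second alignment claim: once everything is an anchor of one mode, indices are aligned. -/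
theorem claimB (pf : ℤ → ℕ → ℤ) (f : Fin 66 → Ty) (hf : Monotone (key pf ∘ f))
    (finj : ∀ i i', f i = f i' → i = i') (k : ℕ) (s : Bool) (b : Option Bool)
    (hall : ∀ t : Fin 64, ∃ i, f (t.castLE (by decide)) = anc k s b i) :
    ∀ t : Fin 64, f (t.castLE (by decide)) = anc k s b t := by
  choose φ hφ using hall
  have hmono : StrictMono φ := by
    intro t t' htt
    have m := hf (show (t.castLE (by decide) : Fin 66) ≤ t'.castLE (by decide) by
      rw [Fin.le_def]; simp; exact le_of_lt htt)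
    simp only [Function.comp, hφ, key, lex_le] at m
    have hne : φ t ≠ φ t' := by
      intro e
      have := finj (t.castLE (by decide)) (t'.castLE (by decide)) (by rw [hφ, hφ, e])
      exact absurd (Fin.castLE_injective _ this) (ne_of_lt htt)
    have hne' : (φ t).val ≠ (φ t').val := fun e => hne (Fin.ext e)
    rw [Fin.lt_def]; omega
  have hid : ∀ t, φ t = t := fun t => le_antisymm hmono.apply_le hmono.le_apply
  intro t
  rw [hφ, hid]

theorem r1_uniq (k k' : ℕ) (s : Bool) (b : Option Bool) (j : ℤ) (x : ℕ)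
    (h : r1 k s b (var j x)) (h' : r1 k' s b (var j x)) : k = k' := by
  cases s <;> cases b <;> simp only [r1] at h h' <;> omega
theorem r2_uniq (k k' : ℕ) (s : Bool) (b : Option Bool) (j : ℤ) (x : ℕ)
    (h : r2 k s b (var j x)) (h' : r2 k' s b (var j x)) : k = k' := by
  cases s <;> cases b <;> simp only [r2] at h h' <;> omega
theorem c1_uniq (k k' : ℕ) (s : Bool) (b : Option Bool) (j : ℤ) (x : ℕ)
    (h : c1 k s b (var j x)) (h' : c1 k' s b (var j x)) : k = k' := by
  cases s <;> cases b <;> simp only [c1] at h h' <;> omega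
theorem c2_uniq (k k' : ℕ) (s : Bool) (b : Option Bool) (j : ℤ) (x : ℕ)
    (h : c2 k s b (var j x)) (h' : c2 k' s b (var j x)) : k = k' := by
  cases s <;> cases b <;> simp only [c2] at h h' <;> omega

theorem bit_eq {x y k : ℕ} (h : bit x k = bit y k) : x / 2 ^ k % 2 = y / 2 ^ k % 2 := by
  simp only [bit, decide_eq_decide] at h
  omega

/-- The local constraints hold in the host, except at a diagonal leaf cell. -/
theorem local_valid (k : ℕ) (s : Bool) (b : Option Bool) (ρ1 ρ2 γ1 γ2 : Ty)
    (h1 : r1 k s b ρ1) (h2 : r2 k s b ρ2) (h3 : c1 k s b γ1) (h4 : c2 k s b γ2)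
    (hr : key posR ρ1 ≤ key posR ρ2) (hc : key posC γ1 ≤ key posC γ2)
    (m11 : ¬ Mat ρ1 γ1) (m12 : Mat ρ1 γ2) (m21 : Mat ρ2 γ1) :
    ∃ x, ρ1 = var 0 x ∧ γ2 = var 0 x := by
  cases s <;> cases b <;> cases ρ1 <;> simp only [r1] at h1 <;> cases ρ2 <;> simp only [r2] at h2 <;>
    cases γ1 <;> simp only [c1] at h3 <;> cases γ2 <;> simp only [c2] at h4
  · -- column step, sign minus
    rename_i j x j' x' l y
    exfalso
    subst h1 h2 h3
    have hr' := key_var_le hr
    simp only [Mat] at m11 m21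
    have e : (-((k : ℤ) + 1)) = -((k + 1 : ℕ) : ℤ) := by push_cast; ring
    rw [e] at hr' m11 m21
    rw [posR_neg, posR_neg, lo_succ, lo, sc_le] at hr'
    rw [PP_neg, QQ_neg _ _ (Nat.succ_pos k), hi_succ, lo_succ, sub_le_sub_iff_right, sc_le] at m11
    rw [PP_neg, QQ_neg _ _ (Nat.succ_pos k), hi, lo_succ, sub_le_sub_iff_right, sc_le] at m21
    omega
  · -- row step, sign minus
    rename_i b j x l y l' y'
    obtain ⟨rfl, hb1⟩ := h1
    obtain ⟨rfl, hb2⟩ := h4
    subst h3
    have hb := bit_eq (hb1.trans hb2.symm)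
    have hc' := key_var_le hc
    simp only [Mat] at m11 m12
    have e : (-((k : ℤ) + 1)) = -((k + 1 : ℕ) : ℤ) := by push_cast; ring
    rw [e] at hc' m11
    rw [posC_neg, posC_neg, hi_succ, hi, neg_le_neg_iff, sub_le_sub_iff_right, sc_le] at hc'
    rw [PP_neg, QQ_neg _ _ (Nat.succ_pos k), hi, lo_succ, sub_le_sub_iff_right, sc_le] at m11
    rcases Nat.eq_zero_or_pos k with rfl | hk
    · refine ⟨x, by simp, ?_⟩
      simp only [Nat.cast_zero, neg_zero] at m12 ⊢
      have q1 := PP_pos 0 x
      have q2 := QQ_pos 0 y'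
      simp only [Nat.cast_zero] at q1 q2
      rw [q1, q2, lo_zero, hi_zero] at m12
      simp only [pow_zero, Nat.div_one] at *
      congr 1
      omega
    · exfalso
      rw [PP_neg, QQ_neg _ _ hk, hi, lo, sub_le_sub_iff_right, sc_le] at m12
      omega
  · -- column step, sign plus
    rename_i j x j' x' l y
    exfalso
    subst h1 h2 h3
    have hr' := key_var_le hr
    simp only [Mat] at m11 m21
    have e : ((k : ℤ) + 1) = ((k + 1 : ℕ) : ℤ) := by push_cast; ring
    rw [e] at hr' m11 m21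
    rw [posR_pos, posR_pos, hi_succ, hi, sub_le_sub_iff_right, sc_le] at hr'
    rw [PP_pos, QQ_pos, hi_succ, lo, sc_lt] at m11
    rw [PP_pos, QQ_pos, hi_succ, lo_succ, sc_lt] at m21
    omega
  · -- row step, sign plus
    rename_i b j x l y l' y'
    exfalso
    obtain ⟨rfl, hb1⟩ := h1
    obtain ⟨rfl, hb2⟩ := h3
    subst h4
    have hb := bit_eq (hb1.trans hb2.symm)
    have hc' := key_var_le hc
    simp only [Mat] at m11 m12
    have e : ((k : ℤ) + 1) = ((k + 1 : ℕ) : ℤ) := by push_cast; ring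
    rw [e] at hc' m12
    rw [posC_pos, posC_pos, lo_succ, lo, neg_le_neg_iff, sc_le] at hc'
    rw [PP_pos, QQ_pos, hi, lo, sc_lt] at m11
    rw [PP_pos, QQ_pos, hi_succ, lo, sc_lt] at m12
    omega

/-- Generic form of the role extraction for the two active lines. -/
theorem claimC (M : Ty → Ty → Prop) (ρ1 ρ2 : ℕ → Bool → Option Bool → Ty → Prop)
    (pf : ℤ → ℕ → ℤ)
    (h0 : ∀ k s b i k' s' b' j, M (anc k s b i) (anc k' s' b' j) → k = k' ∧ s = s' ∧ b = b')
    (h1 : ∀ j x k s b i, M (var j x) (anc k s b i) ↔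
      (i.val = 63 ∧ ρ1 k s b (var j x)) ∨ (i.val = 62 ∧ ρ2 k s b (var j x)))
    (h1d : ∀ k s b i, M dum (anc k s b i) ↔
      (i.val = 63 ∧ ρ1 k s b dum) ∨ (i.val = 62 ∧ ρ2 k s b dum))
    (f g : Fin 66 → Ty) (hf : Monotone (key pf ∘ f))
    (finj : ∀ i i', f i = f i' → i = i')
    (hM : ∀ i j, M (f i) (g j) ↔ Hp i j = true) (k : ℕ) (s : Bool) (b : Option Bool)
    (hf63 : f 63 = anc k s b 63) (hg63 : g 63 = anc k s b 63) (hg62 : g 62 = anc k s b 62) :
    ρ1 k s b (f 64) ∧ ρ2 k s b (f 65) := by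
  have m1 := hf (show (63 : Fin 66) ≤ 64 by decide)
  have m2 := hf (show (63 : Fin 66) ≤ 65 by decide)
  have a1 := (hM 64 63).2 (by decide)
  have a2 := (hM 65 62).2 (by decide)
  simp only [Function.comp] at m1 m2
  rw [hg63] at a1
  rw [hg62] at a2
  rw [hf63] at m1 m2
  constructor
  · cases hf64 : f 64 with
    | anc k' s' b' i =>
      exfalso
      rw [hf64] at a1 m1
      obtain ⟨rfl, rfl, rfl⟩ := h0 _ _ _ _ _ _ _ _ a1
      simp only [key, lex_le] at m1
      have : i = 63 := by
        apply Fin.ext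
        have := i.2
        simp at m1 ⊢
        omega
      subst this
      exact absurd (finj 63 64 (by rw [hf63, hf64])) (by decide)
    | var j x => rw [hf64, h1] at a1; simpa using a1
    | dum => rw [hf64, h1d] at a1; simpa using a1
  · cases hf65 : f 65 with
    | anc k' s' b' i =>
      exfalso
      rw [hf65] at a2 m2
      obtain ⟨rfl, rfl, rfl⟩ := h0 _ _ _ _ _ _ _ _ a2
      simp only [key, lex_le] at m2
      have : i = 63 := by
        apply Fin.ext
        have := i.2
        simp at m2 ⊢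
        omega
      subst this
      exact absurd (finj 63 65 (by rw [hf63, hf65])) (by decide)
    | var j x => rw [hf65, h1] at a2; simpa using a2
    | dum => rw [hf65, h1d] at a2; simpa using a2

theorem anc_below (pf : ℤ → ℕ → ℤ) (f : Fin 66 → Ty) (hf : Monotone (key pf ∘ f))
    {k : ℕ} {s : Bool} {b : Option Bool} {i : Fin 64} (h : f 63 = anc k s b i) (t : Fin 64) :
    ∃ k s b i, f (t.castLE (by decide)) = anc k s b i := by
  have m3 := hf (show (t.castLE (by decide) : Fin 66) ≤ 63 by
    rw [Fin.le_def]; have := t.2; simp; omega)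
  simp only [Function.comp] at m3
  cases hgt : f (t.castLE (by decide)) with
  | var l y => rw [hgt, h] at m3; simp only [key, lex_le] at m3; omega
  | dum => rw [hgt, h] at m3; simp only [key, lex_le] at m3; omega
  | anc k s b i => exact ⟨k, s, b, i, rfl⟩

/-- Every (weakly ordered) copy of the pattern in the host uses a diagonal leaf cell. -/
theorem rigid (f g : Fin 66 → Ty) (hf : Monotone (key posR ∘ f)) (hg : Monotone (key posC ∘ g))
    (hM : ∀ i j, Mat (f i) (g j) ↔ Hp i j = true) : ∃ x, f 64 = var 0 x ∧ g 65 = var 0 x := by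
  have hM' : ∀ i j, flip Mat (g i) (f j) ↔ Hp i j = true := by
    intro i j; rw [Hp_symm]; exact hM j i
  have finj : ∀ i i', f i = f i' → i = i' := by
    intro i i' e
    apply Hp_inj
    intro j
    rw [Hp_symm j i, Hp_symm j i', Bool.eq_iff_iff, ← hM, ← hM, e]
  have ginj : ∀ i i', g i = g i' → i = i' := by
    intro i i' e
    apply Hp_inj
    intro j
    rw [Bool.eq_iff_iff, ← hM, ← hM, e]
  obtain ⟨k, s, b, i, hf63⟩ := claimA Mat r1 r2 posR posC (fun _ _ _ _ _ _ => Iff.rfl)
    (by intro j x j' x' l y l' y' h h'; simp only [Mat] at *; omega)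
    (fun _ _ => trivial) (fun _ _ => trivial) trivial r1_uniq r2_uniq f g hf hg hM
  obtain ⟨k', s', b', i', hg63⟩ := claimA (flip Mat) c1 c2 posC posR (fun _ _ _ _ _ _ => Iff.rfl)
    (by intro j x j' x' l y l' y' h h'; simp only [flip, Mat] at *; omega)
    (fun _ _ => trivial) (fun _ _ => trivial) trivial c1_uniq c2_uniq g f hg hf hM'
  have a0 := (hM 63 63).2 (by decide)
  rw [hf63, hg63] at a0
  obtain ⟨⟨rfl, rfl, rfl⟩, -⟩ := a0
  have hfa : ∀ t : Fin 64, ∃ i, f (t.castLE (by decide)) = anc k s b i := by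
    intro t
    obtain ⟨k1, s1, b1, i1, h⟩ := anc_below posR f hf hf63 t
    have a := (hM (t.castLE (by decide)) 63).2 (by rw [Hp_symm]; exact Hp_63 t)
    rw [h, hg63] at a
    obtain ⟨⟨rfl, rfl, rfl⟩, -⟩ := a
    exact ⟨i1, h⟩
  have hga : ∀ t : Fin 64, ∃ i, g (t.castLE (by decide)) = anc k s b i := by
    intro t
    obtain ⟨k1, s1, b1, i1, h⟩ := anc_below posC g hg hg63 t
    have a := (hM 63 (t.castLE (by decide))).2 (Hp_63 t)
    rw [h, hf63] at a
    obtain ⟨⟨rfl, rfl, rfl⟩, -⟩ := a
    exact ⟨i1, h⟩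
  have hf' := claimB posR f hf finj k s b hfa
  have hg' := claimB posC g hg ginj k s b hga
  obtain ⟨p1, p2⟩ := claimC Mat r1 r2 posR (fun _ _ _ _ _ _ _ _ h => h.1)
    (fun _ _ _ _ _ _ => Iff.rfl) (fun _ _ _ _ => Iff.rfl) f g hf finj hM k s b
    (hf' 63) (hg' 63) (hg' 62)
  obtain ⟨p3, p4⟩ := claimC (flip Mat) c1 c2 posC
    (fun _ _ _ _ _ _ _ _ h => ⟨h.1.1.symm, h.1.2.1.symm, h.1.2.2.symm⟩)
    (fun _ _ _ _ _ _ => Iff.rfl) (fun _ _ _ _ => Iff.rfl) g f hg ginj hM' k s b
    (hg' 63) (hf' 63) (hf' 62)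
  refine local_valid k s b (f 64) (f 65) (g 64) (g 65) p1 p2 p3 p4
    (hf (show (64 : Fin 66) ≤ 65 by decide)) (hg (show (64 : Fin 66) ≤ 65 by decide)) ?_ ?_ ?_
  · rw [hM]; decide
  · rw [hM]; decide
  · rw [hM]; decide

end Crest.Agent.R47
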